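import Vale.Agent.P262.Universal

/-- For every dimension `d` there is a finite sequence of vectors in the Euclidean unit ball of
`ℝ^d` such that every choice of signs has a prefix sum of squared norm at least `(32 d - 7) / 25`.
Hence `σ(d)^2 ≥ 1.28 d - 0.28`, which beats the orthonormal-basis bound `σ(d)^2 ≥ d` for `d ≥ 2`. -/
theorem Vale.Agent.Results.P262.SignedPrefixConstant.result (d : ℕ) :
    ∃ (N : ℕ) (v : ℕ → EuclideanSpace ℝ (Fin d)), (∀ i, ‖v i‖ ≤ 1) ∧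
      ∀ ε : ℕ → ℝ, (∀ i, ε i = 1 ∨ ε i = -1) →
        ∃ k ≤ N, (32 * (d : ℝ) - 7) / 25 ≤ ‖∑ i ∈ Finset.range k, ε i • v i‖ ^ 2 :=
  Vale.Agent.P262.main_bound d
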